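import Vale.Agent.P260U2.Main
import Vale.Agent.N260.Data

/-!
# P260: the Borel conjecture fails in dimension four for infinitely many fundamental groups
-/

namespace Vale.Agent.Results.P260.A0KleinTower

open Vale.Agent.P260U2 Vale.Agent.N260 ContinuousMap

theorem result :
    ∃ (M N : ℕ → Type) (_ : ∀ k, TopologicalSpace (M k)) (_ : ∀ k, TopologicalSpace (N k)),
      (∀ k, IsClosedFourManifold (M k) ∧ IsClosedFourManifold (N k) ∧ Aspherical (M k) ∧
        Aspherical (N k) ∧ Nonempty (HomotopyEquiv (M k) (N k)) ∧ IsEmpty (M k ≃ₜ N k) ∧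
        ¬ HasKlein (M k) ∧ HasKlein (N k)) ∧
      (∀ k l, k ≠ l → ∀ x y, IsEmpty (FundamentalGroup (M k) x ≃* FundamentalGroup (M l) y)) ∧
      ∀ k, (∃ p : M (k + 1) → M k, IsCoveringMap p ∧ Function.Surjective p) ∧
        ∃ q : N (k + 1) → N k, IsCoveringMap q ∧ Function.Surjective q := by
  let _ := P260Z.L3.actE
  obtain ⟨S, _, C, D, D', P⟩ := exists_data
  obtain ⟨s, t, hc, ho⟩ := P.two
  obtain ⟨H, h1, h2, h3⟩ := exists_tower hc ho
  have c := fun k => closed D.all.chart ((h1 k).nice D.all) D.all.ae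
  have c' := fun k => closed D'.all.chart ((h1 k).nice D'.all) D'.all.ae
  have key : ∀ k, IsClosedFourManifold (MulAction.orbitRel.Quotient (H k) D.Mt) ∧
      IsClosedFourManifold (MulAction.orbitRel.Quotient (H k) D'.Mt) ∧
      Aspherical (MulAction.orbitRel.Quotient (H k) D.Mt) ∧
      Aspherical (MulAction.orbitRel.Quotient (H k) D'.Mt) ∧
      Nonempty (HomotopyEquiv (MulAction.orbitRel.Quotient (H k) D.Mt)
        (MulAction.orbitRel.Quotient (H k) D'.Mt)) ∧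
      IsEmpty (MulAction.orbitRel.Quotient (H k) D.Mt ≃ₜ MulAction.orbitRel.Quotient (H k) D'.Mt) ∧
      ¬ HasKlein (MulAction.orbitRel.Quotient (H k) D.Mt) ∧
      HasKlein (MulAction.orbitRel.Quotient (H k) D'.Mt) := fun k => by
    obtain ⟨⟨_⟩, _, _, _, a, -⟩ := c k
    obtain ⟨⟨_⟩, _, _, _, a', -⟩ := c' k
    exact ⟨(pack a).1.1, (pack a').1.1, (pack a).1.2.1, (pack a').1.2.1,
      P260Z.heq_of P260Z.eqx _ _ _ ((h1 k).nice D.all) ((h1 k).nice D'.all) D.all.ae D'.all.ae,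
      ⟨fun e => P.not_klein (h1 k) ((P.has_klein (h1 k)).of_homeo e.symm)⟩,
      P.not_klein (h1 k), P.has_klein (h1 k)⟩
  refine ⟨_, _, inferInstance, inferInstance, key,
    fun k l hkl x y => ⟨fun e => hkl (h3.injective ?_)⟩, fun k => ?_⟩
  · obtain ⟨a⟩ := (c k).2.2.2.2.2 x
    obtain ⟨b⟩ := (c l).2.2.2.2.2 y
    exact le_antisymm (P.kd.index_le (h1 k) (h1 l) (a.symm.trans (e.trans b)))
      (P.kd.index_le (h1 l) (h1 k) (a.symm.trans (e.trans b)).symm)
  · obtain ⟨-, _, _, -⟩ := c (k + 1)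
    obtain ⟨-, _, _, -⟩ := c' (k + 1)
    obtain ⟨-, _, -⟩ := c k
    obtain ⟨-, _, -⟩ := c' k
    exact ⟨tower (h2 k) ((h1 _).nice D.all) ((h1 _).nice D.all),
      tower (h2 k) ((h1 _).nice D'.all) ((h1 _).nice D'.all)⟩

end Vale.Agent.Results.P260.A0KleinTower
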